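import Crest.Agent.Lib.Snaky.Core
/-!
The token-stream checker over Nat bitmasks and its soundness.
Tokens are 16 bits: kind 0 = Maker move on cell `v`; kind 1 = completing move given by a placement
(`v % 1024` anchor, `v / 1024` orientation); kind 2 = use fact number `v`.
-/

namespace Crest.Agent.Lib.SnakyS

open Crest.CombinatoricsR.PolyominoGame

structure Fact where
  k : ℕ
  M : ℕ
  B : ℕ
  Z : ℕ

def Fact.Holds (f : Fact) : Prop := ZWins f.k (bits f.M) (bits f.B) (bits f.Z)

def nthFact : List Fact → ℕ → Option Fact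
  | [], _ => none
  | f :: _, 0 => some f
  | _ :: l, n + 1 => nthFact l n

lemma nthFact_mem : ∀ (l : List Fact) (n : ℕ) (f : Fact), nthFact l n = some f → f ∈ l
  | [], _, _, h => by simp [nthFact] at h
  | g :: l, 0, f, h => by
      simp only [nthFact, Option.some.injEq] at h
      simp [h]
  | g :: l, n + 1, f, h => by
      simp only [nthFact] at h
      exact List.mem_cons_of_mem _ (nthFact_mem l n f h)

def mk (Z p : ℕ) : ℕ := Nat.add (Nat.mul Z 16777216) (Nat.mod p 16777216)
def zOf (R : ℕ) : ℕ := Nat.div R 16777216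
def pOf (R : ℕ) : ℕ := Nat.mod R 16777216

lemma zOf_mk (Z p : ℕ) : zOf (mk Z p) = Z := by
  show (Z * 16777216 + p % 16777216) / 16777216 = Z
  omega

/-- Pattern table as a literal. -/
def patLit : ℕ :=
  0x2000000020000000200000003000000010000000100000001000000010000000300000002000000010000000300000002000000020000000200000002000000030000000100000001000000010000000000000000000000000000001e000000030000000000000000000000000000000f00000018000000000000000000000000000000030000001e000000000000000000000000000000180000000f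

def patAt (o : ℕ) : ℕ := Nat.mod (Nat.shiftRight patLit (Nat.mul o 160))
  1461501637330902918203684832716283019655932542976

lemma patAt_testBit_spec : ∀ o : Fin 8, ∀ q ∈ patList o.1, (patAt o.1).testBit (q.2 * 32 + q.1) = true := by
  decide +kernel

lemma patAt_testBit (o : ℕ) (ho : o < 8) (q : ℕ × ℕ) (hq : q ∈ patList o) :
    (patAt o).testBit (q.2 * 32 + q.1) = true :=
  patAt_testBit_spec ⟨o, ho⟩ q hq

/-- A bit pattern placed at anchor `a` inside the set `X` gives a copy. -/
lemma copy_of_pat {X : Set Cell} {a o : ℕ} (ho : o < 8) (hw : a % 32 + patW o ≤ 31)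
    (h : ∀ j, (patAt o).testBit j = true → cellOf (a + j) ∈ X) : ContainsCopy X := by
  have key : ∀ dx dy : ℕ, (dx, dy) ∈ patList o → dx ≤ patW o →
      (((a % 32 : ℕ) : ℤ) + dx, ((a / 32 : ℕ) : ℤ) + dy) ∈ X := by
    intro dx dy hq hdx
    have := h _ (patAt_testBit o ho (dx, dy) hq)
    rwa [cellOf_add a dx dy (by omega)] at this
  set x : ℤ := ((a % 32 : ℕ) : ℤ) with hx
  set y : ℤ := ((a / 32 : ℕ) : ℤ) with hy
  have key' : ∀ dx dy : ℕ, (dx, dy) ∈ patList o → dx ≤ patW o →
      ∀ u v : ℤ, u = x + dx → v = y + dy → (u, v) ∈ X := by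
    intro dx dy hq hdx u v hu hv
    subst hu hv
    exact key dx dy hq hdx
  have hfin : o = 0 ∨ o = 1 ∨ o = 2 ∨ o = 3 ∨ o = 4 ∨ o = 5 ∨ o = 6 ∨ o = 7 := by omega
  rcases hfin with rfl | rfl | rfl | rfl | rfl | rfl | rfl | rfl
  · refine ⟨(x, y), 1, 1, Or.inl rfl, Or.inl rfl, Or.inl ?_⟩
    intro p hp
    simp only [snaky, Finset.mem_insert, Finset.mem_singleton] at hp
    rcases hp with rfl | rfl | rfl | rfl | rfl | rfl
    · exact key' 0 0 (by decide) (by decide) _ _ (by push_cast; ring) (by push_cast; ring)
    · exact key' 1 0 (by decide) (by decide) _ _ (by push_cast; ring) (by push_cast; ring)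
    · exact key' 2 0 (by decide) (by decide) _ _ (by push_cast; ring) (by push_cast; ring)
    · exact key' 3 0 (by decide) (by decide) _ _ (by push_cast; ring) (by push_cast; ring)
    · exact key' 3 1 (by decide) (by decide) _ _ (by push_cast; ring) (by push_cast; ring)
    · exact key' 4 1 (by decide) (by decide) _ _ (by push_cast; ring) (by push_cast; ring)
  · refine ⟨(x + 4, y), -1, 1, Or.inr rfl, Or.inl rfl, Or.inl ?_⟩
    intro p hp
    simp only [snaky, Finset.mem_insert, Finset.mem_singleton] at hp
    rcases hp with rfl | rfl | rfl | rfl | rfl | rfl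
    · exact key' 4 0 (by decide) (by decide) _ _ (by push_cast; ring) (by push_cast; ring)
    · exact key' 3 0 (by decide) (by decide) _ _ (by push_cast; ring) (by push_cast; ring)
    · exact key' 2 0 (by decide) (by decide) _ _ (by push_cast; ring) (by push_cast; ring)
    · exact key' 1 0 (by decide) (by decide) _ _ (by push_cast; ring) (by push_cast; ring)
    · exact key' 1 1 (by decide) (by decide) _ _ (by push_cast; ring) (by push_cast; ring)
    · exact key' 0 1 (by decide) (by decide) _ _ (by push_cast; ring) (by push_cast; ring)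
  · refine ⟨(x, y + 1), 1, -1, Or.inl rfl, Or.inr rfl, Or.inl ?_⟩
    intro p hp
    simp only [snaky, Finset.mem_insert, Finset.mem_singleton] at hp
    rcases hp with rfl | rfl | rfl | rfl | rfl | rfl
    · exact key' 0 1 (by decide) (by decide) _ _ (by push_cast; ring) (by push_cast; ring)
    · exact key' 1 1 (by decide) (by decide) _ _ (by push_cast; ring) (by push_cast; ring)
    · exact key' 2 1 (by decide) (by decide) _ _ (by push_cast; ring) (by push_cast; ring)
    · exact key' 3 1 (by decide) (by decide) _ _ (by push_cast; ring) (by push_cast; ring)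
    · exact key' 3 0 (by decide) (by decide) _ _ (by push_cast; ring) (by push_cast; ring)
    · exact key' 4 0 (by decide) (by decide) _ _ (by push_cast; ring) (by push_cast; ring)
  · refine ⟨(x + 4, y + 1), -1, -1, Or.inr rfl, Or.inr rfl, Or.inl ?_⟩
    intro p hp
    simp only [snaky, Finset.mem_insert, Finset.mem_singleton] at hp
    rcases hp with rfl | rfl | rfl | rfl | rfl | rfl
    · exact key' 4 1 (by decide) (by decide) _ _ (by push_cast; ring) (by push_cast; ring)
    · exact key' 3 1 (by decide) (by decide) _ _ (by push_cast; ring) (by push_cast; ring)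
    · exact key' 2 1 (by decide) (by decide) _ _ (by push_cast; ring) (by push_cast; ring)
    · exact key' 1 1 (by decide) (by decide) _ _ (by push_cast; ring) (by push_cast; ring)
    · exact key' 1 0 (by decide) (by decide) _ _ (by push_cast; ring) (by push_cast; ring)
    · exact key' 0 0 (by decide) (by decide) _ _ (by push_cast; ring) (by push_cast; ring)
  · refine ⟨(x, y), 1, 1, Or.inl rfl, Or.inl rfl, Or.inr ?_⟩
    intro p hp
    simp only [snaky, Finset.mem_insert, Finset.mem_singleton] at hp
    rcases hp with rfl | rfl | rfl | rfl | rfl | rfl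
    · exact key' 0 0 (by decide) (by decide) _ _ (by push_cast; ring) (by push_cast; ring)
    · exact key' 0 1 (by decide) (by decide) _ _ (by push_cast; ring) (by push_cast; ring)
    · exact key' 0 2 (by decide) (by decide) _ _ (by push_cast; ring) (by push_cast; ring)
    · exact key' 0 3 (by decide) (by decide) _ _ (by push_cast; ring) (by push_cast; ring)
    · exact key' 1 3 (by decide) (by decide) _ _ (by push_cast; ring) (by push_cast; ring)
    · exact key' 1 4 (by decide) (by decide) _ _ (by push_cast; ring) (by push_cast; ring)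
  · refine ⟨(x + 1, y), -1, 1, Or.inr rfl, Or.inl rfl, Or.inr ?_⟩
    intro p hp
    simp only [snaky, Finset.mem_insert, Finset.mem_singleton] at hp
    rcases hp with rfl | rfl | rfl | rfl | rfl | rfl
    · exact key' 1 0 (by decide) (by decide) _ _ (by push_cast; ring) (by push_cast; ring)
    · exact key' 1 1 (by decide) (by decide) _ _ (by push_cast; ring) (by push_cast; ring)
    · exact key' 1 2 (by decide) (by decide) _ _ (by push_cast; ring) (by push_cast; ring)
    · exact key' 1 3 (by decide) (by decide) _ _ (by push_cast; ring) (by push_cast; ring)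
    · exact key' 0 3 (by decide) (by decide) _ _ (by push_cast; ring) (by push_cast; ring)
    · exact key' 0 4 (by decide) (by decide) _ _ (by push_cast; ring) (by push_cast; ring)
  · refine ⟨(x, y + 4), 1, -1, Or.inl rfl, Or.inr rfl, Or.inr ?_⟩
    intro p hp
    simp only [snaky, Finset.mem_insert, Finset.mem_singleton] at hp
    rcases hp with rfl | rfl | rfl | rfl | rfl | rfl
    · exact key' 0 4 (by decide) (by decide) _ _ (by push_cast; ring) (by push_cast; ring)
    · exact key' 0 3 (by decide) (by decide) _ _ (by push_cast; ring) (by push_cast; ring)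
    · exact key' 0 2 (by decide) (by decide) _ _ (by push_cast; ring) (by push_cast; ring)
    · exact key' 0 1 (by decide) (by decide) _ _ (by push_cast; ring) (by push_cast; ring)
    · exact key' 1 1 (by decide) (by decide) _ _ (by push_cast; ring) (by push_cast; ring)
    · exact key' 1 0 (by decide) (by decide) _ _ (by push_cast; ring) (by push_cast; ring)
  · refine ⟨(x + 1, y + 4), -1, -1, Or.inr rfl, Or.inr rfl, Or.inr ?_⟩
    intro p hp
    simp only [snaky, Finset.mem_insert, Finset.mem_singleton] at hp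
    rcases hp with rfl | rfl | rfl | rfl | rfl | rfl
    · exact key' 1 4 (by decide) (by decide) _ _ (by push_cast; ring) (by push_cast; ring)
    · exact key' 1 3 (by decide) (by decide) _ _ (by push_cast; ring) (by push_cast; ring)
    · exact key' 1 2 (by decide) (by decide) _ _ (by push_cast; ring) (by push_cast; ring)
    · exact key' 1 1 (by decide) (by decide) _ _ (by push_cast; ring) (by push_cast; ring)
    · exact key' 0 1 (by decide) (by decide) _ _ (by push_cast; ring) (by push_cast; ring)
    · exact key' 0 0 (by decide) (by decide) _ _ (by push_cast; ring) (by push_cast; ring)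

/-! ### Kernel-friendly checker (direct recursors, no `Nat.log2`) -/

/-- Lowest set bit. -/
def lowbit (n : ℕ) : ℕ := Nat.sub n (Nat.land n (Nat.sub n 1))

lemma land_sub_one (n : ℕ) (hn : n ≠ 0) : ∃ j, n &&& (n - 1) = n - 2 ^ j ∧ 2 ^ j ≤ n := by
  induction n using Nat.strong_induction_on with
  | _ n ih =>
    rcases Nat.even_or_odd' n with ⟨m, rfl | rfl⟩
    · have hm : m ≠ 0 := by omega
      obtain ⟨j, h1, h2⟩ := ih m (by omega) hm
      refine ⟨j + 1, ?_, ?_⟩
      · have e : 2 * m - 2 ^ (j + 1) = 2 * (m - 2 ^ j) := by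
          rw [pow_succ]; omega
        rw [e, ← h1]
        apply Nat.eq_of_testBit_eq
        intro i
        cases i with
        | zero =>
          simp [Nat.testBit_zero]
        | succ i =>
          rw [Nat.testBit_and, Nat.testBit_succ, Nat.testBit_succ, Nat.testBit_succ]
          have e1 : 2 * m / 2 = m := by omega
          have e2 : (2 * m - 1) / 2 = m - 1 := by omega
          have e3 : 2 * (m &&& (m - 1)) / 2 = m &&& (m - 1) := by omega
          rw [e1, e2, e3, Nat.testBit_and]
      · rw [pow_succ]; omega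
    · refine ⟨0, ?_, ?_⟩
      · have e : 2 * m + 1 - 2 ^ 0 = 2 * m := by simp
        have e' : 2 * m + 1 - 1 = 2 * m := by simp
        rw [e, e']
        apply Nat.eq_of_testBit_eq
        intro i
        cases i with
        | zero =>
          simp [Nat.testBit_zero]
        | succ i =>
          rw [Nat.testBit_and, Nat.testBit_succ, Nat.testBit_succ]
          have e1 : (2 * m + 1) / 2 = m := by omega
          have e2 : 2 * m / 2 = m := by omega
          rw [e1, e2, Bool.and_self]
      · simp

lemma lowbit_spec (n : ℕ) (hn : n ≠ 0) : ∃ j, lowbit n = 2 ^ j := by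
  obtain ⟨j, h1, h2⟩ := land_sub_one n hn
  refine ⟨j, ?_⟩
  show n - (n &&& (n - 1)) = 2 ^ j
  rw [h1]
  exact Nat.sub_sub_self h2

lemma brec_zero_left {c : Bool} {a : ℕ} (h : @Bool.rec (fun _ => ℕ) 0 a c ≠ 0) :
    c = true ∧ a ≠ 0 := by
  cases c with
  | false => exact (h rfl).elim
  | true => exact ⟨rfl, h⟩

lemma brec_zero_right {c : Bool} {a : ℕ} (h : @Bool.rec (fun _ => ℕ) a 0 c ≠ 0) :
    c = false ∧ a ≠ 0 := by
  cases c with
  | false => exact ⟨rfl, h⟩
  | true => exact (h rfl).elim

/-- Completing move from a placement: last tests. -/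
noncomputable def leafE (B p rem : ℕ) : ℕ :=
  @Bool.rec (fun _ => ℕ) 0
    (@Bool.rec (fun _ => ℕ) 0
      (@Bool.rec (fun _ => ℕ) (mk rem p) 0 (Nat.beq rem 0))
      (Nat.beq (Nat.land rem B) 0))
    (Nat.beq rem (lowbit rem))

noncomputable def leafD (M B p mask : ℕ) : ℕ :=
  leafE B p (Nat.land mask (Nat.xor mask M))

noncomputable def leafR (M B p t : ℕ) : ℕ :=
  @Bool.rec (fun _ => ℕ)
    (@Bool.rec (fun _ => ℕ) 0
      (leafD M B p (Nat.shiftLeft (patAt (Nat.sub (Nat.div t 1024) 1)) (Nat.mod t 1024)))
      (Nat.ble (Nat.mod t 32) 27))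
    (@Bool.rec (fun _ => ℕ) 0
      (leafD M B p (Nat.shiftLeft (patAt (Nat.sub (Nat.div t 1024) 1)) (Nat.mod t 1024)))
      (Nat.ble (Nat.mod t 32) 30))
    (Nat.ble 5120 t)

lemma leafE_spec {B p rem : ℕ} (h : leafE B p rem ≠ 0) :
    (∃ j, rem = 2 ^ j ∧ B.testBit j = false) ∧ zOf (leafE B p rem) = rem := by
  unfold leafE at h ⊢
  obtain ⟨h1, h⟩ := brec_zero_left h
  obtain ⟨h2, h⟩ := brec_zero_left h
  obtain ⟨h3, h⟩ := brec_zero_right h
  rw [h1, h2, h3]
  refine ⟨?_, zOf_mk _ _⟩
  have hr0 : rem ≠ 0 := by
    intro h0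
    rw [h0] at h3
    exact absurd h3 (by decide)
  obtain ⟨j, hj⟩ := lowbit_spec rem hr0
  have hrem : rem = 2 ^ j := by
    rw [← hj]
    exact Nat.eq_of_beq_eq_true h1
  refine ⟨j, hrem, ?_⟩
  have h4 : (Nat.land rem B).testBit j = false := by
    rw [Nat.eq_of_beq_eq_true h2]; simp
  rw [testBit_and', hrem] at h4
  simpa using h4

lemma leafD_sound {k M B p mask : ℕ} (h : leafD M B p mask ≠ 0)
    (hcopy : ∀ X : Set Cell, (∀ j, mask.testBit j = true → cellOf j ∈ X) → ContainsCopy X) :
    ZWins (k + 1) (bits M) (bits B) (bits (zOf (leafD M B p mask))) := by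
  unfold leafD at h ⊢
  obtain ⟨⟨i, hrm, hnotB⟩, hz⟩ := leafE_spec h
  rw [hz, hrm]
  have hrmi : (Nat.land mask (Nat.xor mask M)).testBit i = true := by
    rw [hrm]; simp
  have hnotM : M.testBit i = false := by
    have h' := hrmi
    rw [testBit_and', testBit_xor', Bool.and_eq_true] at h'
    rcases h' with ⟨h1, h2⟩
    rw [h1] at h2
    simpa using h2
  refine ZWins.leaf (cellOf i) ?_ ?_ ?_ ?_
  · rw [cellOf_mem_bits]; simp
  · rw [cellOf_mem_bits, hnotM]; simp
  · rw [cellOf_mem_bits, hnotB]; simp
  refine hcopy _ ?_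
  intro j hj
  by_cases hM : M.testBit j = true
  · exact Or.inr (cellOf_mem_bits.2 hM)
  · have h' : (Nat.land mask (Nat.xor mask M)).testBit j = true := by
      rw [testBit_and', testBit_xor', hj]
      simpa using hM
    rw [hrm, Nat.testBit_two_pow, decide_eq_true_eq] at h'
    rw [← h']
    exact Or.inl rfl

lemma leaf_copy {X : Set Cell} {t : ℕ} (h1 : 1024 ≤ t) (h2 : t ≤ 9215)
    (hw : t % 32 + patW (t / 1024 - 1) ≤ 31)
    (h : ∀ j, (Nat.shiftLeft (patAt (Nat.sub (Nat.div t 1024) 1)) (Nat.mod t 1024)).testBit j = true →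
      cellOf j ∈ X) : ContainsCopy X := by
  have ho : t / 1024 - 1 < 8 := by omega
  refine copy_of_pat (a := t % 1024) (o := t / 1024 - 1) ho ?_ ?_
  · have : t % 1024 % 32 = t % 32 := by omega
    rw [this]; exact hw
  · intro j hj
    apply h
    show (patAt (t / 1024 - 1) <<< (t % 1024)).testBit (t % 1024 + j) = true
    rw [Nat.testBit_shiftLeft]
    simp [hj]

lemma leafR_sound {k M B p t : ℕ} (h1 : 1024 ≤ t) (h2 : t ≤ 9215) (h : leafR M B p t ≠ 0) :
    ZWins (k + 1) (bits M) (bits B) (bits (zOf (leafR M B p t))) := by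
  unfold leafR at h ⊢
  cases hc : Nat.ble 5120 t with
  | true =>
    rw [hc] at h
    obtain ⟨h3, h⟩ := brec_zero_left (c := Nat.ble (Nat.mod t 32) 30) h
    rw [h3]
    refine leafD_sound h fun X hX => leaf_copy h1 h2 ?_ hX
    have h4 := Nat.le_of_ble_eq_true hc
    have h5 : t % 32 ≤ 30 := Nat.le_of_ble_eq_true h3
    have h6 : patW (t / 1024 - 1) = 1 := by
      have : Nat.ble 4 (t / 1024 - 1) = true := Nat.ble_eq_true_of_le (by omega)
      simp [patW, this]
    omega
  | false =>
    rw [hc] at h
    obtain ⟨h3, h⟩ := brec_zero_left (c := Nat.ble (Nat.mod t 32) 27) h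
    rw [h3]
    refine leafD_sound h fun X hX => leaf_copy h1 h2 ?_ hX
    have h4 : ¬ 5120 ≤ t := by
      intro h7
      rw [Nat.ble_eq_true_of_le h7] at hc
      exact absurd hc (by decide)
    have h5 : t % 32 ≤ 27 := Nat.le_of_ble_eq_true h3
    have h6 : patW (t / 1024 - 1) = 4 := by
      have : Nat.ble 4 (t / 1024 - 1) = false := by
        cases h8 : Nat.ble 4 (t / 1024 - 1) with
        | false => rfl
        | true =>
          have := Nat.le_of_ble_eq_true h8
          omega
      simp [patW, this]
    omega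

/-- Use a known fact. -/
def extR (facts : List Fact) (k M B v p : ℕ) : ℕ :=
  match nthFact facts v with
  | none => 0
  | some f =>
    cond (Nat.ble f.k k)
      (cond (Nat.beq f.M M)
        (cond (Nat.beq (Nat.land f.B B) f.B)
          (cond (Nat.beq (Nat.land (Nat.xor B f.B) f.Z) 0) (mk f.Z p) 0)
          0)
        0)
      0

lemma cond_ne_zero {c : Bool} {a : ℕ} (h : cond c a 0 ≠ 0) : c = true ∧ a ≠ 0 := by
  cases c with
  | false => exact (h rfl).elim
  | true => exact ⟨rfl, h⟩

lemma extR_sound {facts : List Fact} (hf : ∀ f ∈ facts, f.Holds) {k M B v p : ℕ}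
    (h : extR facts k M B v p ≠ 0) :
    ZWins k (bits M) (bits B) (bits (zOf (extR facts k M B v p))) := by
  unfold extR at h ⊢
  cases hn : nthFact facts v with
  | none =>
    rw [hn] at h
    exact (h rfl).elim
  | some f =>
    rw [hn] at h
    dsimp only at h ⊢
    obtain ⟨h1, h⟩ := cond_ne_zero h
    obtain ⟨h2, h⟩ := cond_ne_zero h
    obtain ⟨h3, h⟩ := cond_ne_zero h
    obtain ⟨h4, _⟩ := cond_ne_zero h
    rw [h1, cond_true, h2, cond_true, h3, cond_true, h4, cond_true, zOf_mk]
    have hF : f.Holds := hf f (nthFact_mem _ _ _ hn)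
    have hk : f.k ≤ k := Nat.le_of_ble_eq_true h1
    have hM : f.M = M := Nat.eq_of_beq_eq_true h2
    have hsub : Nat.land f.B B = f.B := Nat.eq_of_beq_eq_true h3
    have hdis : Nat.land (Nat.xor B f.B) f.Z = 0 := Nat.eq_of_beq_eq_true h4
    have hF' : ZWins f.k (bits M) (bits f.B) (bits f.Z) := by rw [← hM]; exact hF
    refine (ZWins.add_outside hF' (B' := bits B) (X := bits (Nat.xor B f.B)) ?_ ?_).mono_k hk
    · ext c
      constructor
      · rintro ⟨i, hi, rfl⟩
        have hi' : B.testBit i = true := hi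
        cases hb : f.B.testBit i with
        | true => exact Or.inl (cellOf_mem_bits.2 hb)
        | false =>
          refine Or.inr (cellOf_mem_bits.2 ?_)
          rw [testBit_xor', hb, hi']
          rfl
      · rintro (⟨i, hi, rfl⟩ | ⟨i, hi, rfl⟩)
        · rw [cellOf_mem_bits]
          have h5 : (Nat.land f.B B).testBit i = f.B.testBit i := by rw [hsub]
          rw [testBit_and'] at h5
          have hi' : f.B.testBit i = true := hi
          rw [hi'] at h5
          simpa using h5
        · rw [cellOf_mem_bits]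
          have hi' : (Nat.xor B f.B).testBit i = true := hi
          rw [testBit_xor'] at hi'
          cases hb : B.testBit i with
          | true => rfl
          | false =>
            cases hb2 : f.B.testBit i with
            | false => rw [hb, hb2] at hi'; exact absurd hi' (by decide)
            | true =>
              have h5 : (Nat.land f.B B).testBit i = f.B.testBit i := by rw [hsub]
              rw [testBit_and', hb, hb2] at h5
              exact absurd h5 (by decide)
    · rw [Set.disjoint_left]
      rintro _ ⟨i, hi, rfl⟩ hz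
      have hz' : f.Z.testBit i = true := cellOf_mem_bits.1 hz
      have h6 : (Nat.land (Nat.xor B f.B) f.Z).testBit i = false := by rw [hdis]; simp
      have hi' : (Nat.xor B f.B).testBit i = true := hi
      rw [testBit_and', hi', hz'] at h6
      exact absurd h6 (by decide)

/-- After a child: continue the loop over the children. -/
noncomputable def loopC (self : ℕ → ℕ → ℕ → ℕ) (rem b acc R : ℕ) : ℕ :=
  @Bool.rec (fun _ => ℕ) (self (Nat.xor rem b) (Nat.lor acc (zOf R)) (pOf R)) 0 (Nat.beq R 0)

noncomputable def loopB (ih : ℕ → ℕ → ℕ → ℕ) (M B : ℕ) (self : ℕ → ℕ → ℕ → ℕ)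
    (rem acc p b : ℕ) : ℕ :=
  loopC self rem b acc (ih M (Nat.lor B b) p)

/-- Iterate over the children: one child for each bit of `rem`, lowest bit first. -/
noncomputable def loop (ih : ℕ → ℕ → ℕ → ℕ) (M B n : ℕ) : ℕ → ℕ → ℕ → ℕ :=
  Nat.rec (fun rem acc p => @Bool.rec (fun _ => ℕ) 0 (mk acc p) (Nat.beq rem 0))
    (fun _ self rem acc p =>
      @Bool.rec (fun _ => ℕ) (loopB ih M B self rem acc p (lowbit rem)) (mk acc p) (Nat.beq rem 0)) n

lemma loop_zero (ih : ℕ → ℕ → ℕ → ℕ) (M B rem acc p : ℕ) :
    loop ih M B 0 rem acc p = @Bool.rec (fun _ => ℕ) 0 (mk acc p) (Nat.beq rem 0) := rfl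

lemma loop_succ (ih : ℕ → ℕ → ℕ → ℕ) (M B n rem acc p : ℕ) :
    loop ih M B (n + 1) rem acc p =
      @Bool.rec (fun _ => ℕ) (loopB ih M B (loop ih M B n) rem acc p (lowbit rem)) (mk acc p)
        (Nat.beq rem 0) := rfl

lemma loop_sound {k : ℕ} {ih : ℕ → ℕ → ℕ → ℕ} {M B : ℕ}
    (hih : ∀ B' p, ih M B' p ≠ 0 → ZWins k (bits M) (bits B') (bits (zOf (ih M B' p)))) :
    ∀ (n rem acc p : ℕ), loop ih M B n rem acc p ≠ 0 →
      (∀ i, acc.testBit i = true → (zOf (loop ih M B n rem acc p)).testBit i = true) ∧
      ∀ i, rem.testBit i = true →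
        ZWins k (bits M) (bits (Nat.lor B (2 ^ i))) (bits (zOf (loop ih M B n rem acc p))) := by
  intro n
  induction n with
  | zero =>
    intro rem acc p h
    rw [loop_zero] at h ⊢
    obtain ⟨hr, _⟩ := brec_zero_left h
    rw [hr]
    show (∀ i, acc.testBit i = true → (zOf (mk acc p)).testBit i = true) ∧ _
    rw [show (@Bool.rec (fun _ => ℕ) 0 (mk acc p) true) = mk acc p from rfl, zOf_mk]
    have hr0 : rem = 0 := Nat.eq_of_beq_eq_true hr
    subst hr0
    exact ⟨fun i hi => hi, fun i hi => by simp at hi⟩
  | succ n ih' =>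
    intro rem acc p h
    rw [loop_succ] at h ⊢
    cases hr : Nat.beq rem 0 with
    | true =>
      rw [show (@Bool.rec (fun _ => ℕ) (loopB ih M B (loop ih M B n) rem acc p (lowbit rem))
        (mk acc p) true) = mk acc p from rfl, zOf_mk]
      have hr0 : rem = 0 := Nat.eq_of_beq_eq_true hr
      subst hr0
      exact ⟨fun i hi => hi, fun i hi => by simp at hi⟩
    | false =>
      rw [hr] at h
      have hrne : rem ≠ 0 := by
        intro h0
        rw [h0] at hr
        exact absurd hr (by decide)
      obtain ⟨j, hj⟩ := lowbit_spec rem hrne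
      rw [show (@Bool.rec (fun _ => ℕ) (loopB ih M B (loop ih M B n) rem acc p (lowbit rem))
        (mk acc p) false) = loopB ih M B (loop ih M B n) rem acc p (lowbit rem) from rfl] at h ⊢
      rw [hj] at h ⊢
      unfold loopB loopC at h ⊢
      generalize hR : ih M (Nat.lor B (2 ^ j)) p = R at h ⊢
      cases hR0 : Nat.beq R 0 with
      | true =>
        rw [hR0] at h
        exact (h rfl).elim
      | false =>
        rw [hR0] at h
        have hRne : R ≠ 0 := by
          intro h0
          rw [h0] at hR0
          exact absurd hR0 (by decide)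
        change loop ih M B n (Nat.xor rem (2 ^ j)) (Nat.lor acc (zOf R)) (pOf R) ≠ 0 at h
        obtain ⟨h1, h2⟩ := ih' _ _ _ h
        refine ⟨fun i hi => h1 i (by rw [testBit_or', hi]; rfl), ?_⟩
        intro i hi
        by_cases hij : i = j
        · subst hij
          have h3 := hih (Nat.lor B (2 ^ i)) p (by rw [hR]; exact hRne)
          rw [hR] at h3
          refine h3.mono_zone (bits_subset fun l hl => h1 l ?_)
          rw [testBit_or', hl]
          simp
        · refine h2 i ?_
          rw [testBit_xor', hi, Nat.testBit_two_pow]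
          simp [Ne.symm hij]

/-- Fuel of the child loop (at most one child per board cell). -/
@[irreducible] def loopFuel : ℕ := 1024

noncomputable def moveC (ih : ℕ → ℕ → ℕ → ℕ) (M' B mb R : ℕ) : ℕ :=
  @Bool.rec (fun _ => ℕ) (loop ih M' B loopFuel (zOf R) (Nat.lor (zOf R) mb) (pOf R)) 0 (Nat.beq R 0)

noncomputable def moveR (ih : ℕ → ℕ → ℕ → ℕ) (M B p mb : ℕ) : ℕ :=
  @Bool.rec (fun _ => ℕ) 0 (moveC ih (Nat.lor M mb) B mb (ih (Nat.lor M mb) B (Nat.add p 1)))
    (Nat.beq (Nat.land mb (Nat.lor M B)) 0)

/-- One node, given its token. -/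
noncomputable def nodeT (facts : List Fact) (k : ℕ) (ih : ℕ → ℕ → ℕ → ℕ) (M B p t : ℕ) : ℕ :=
  @Bool.rec (fun _ => ℕ) (moveR ih M B p (Nat.pow 2 t))
    (@Bool.rec (fun _ => ℕ) (extR facts (Nat.add k 1) M B (Nat.sub t 9216) (Nat.add p 1))
      (leafR M B (Nat.add p 1) t) (Nat.ble t 9215))
    (Nat.ble 1024 t)

/-- The checker: returns `0` on failure, otherwise the zone and the new stream position. -/
noncomputable def check (get : ℕ → ℕ) (facts : List Fact) (k : ℕ) : ℕ → ℕ → ℕ → ℕ :=
  Nat.rec (fun _ _ _ => 0) (fun k ih M B p => nodeT facts k ih M B p (get p)) k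

lemma check_zero (get : ℕ → ℕ) (facts : List Fact) (M B p : ℕ) : check get facts 0 M B p = 0 := rfl

lemma check_succ (get : ℕ → ℕ) (facts : List Fact) (k M B p : ℕ) :
    check get facts (k + 1) M B p = nodeT facts k (check get facts k) M B p (get p) := rfl

lemma moveR_sound {k M B p v : ℕ} {ih : ℕ → ℕ → ℕ → ℕ}
    (hih : ∀ M' B' p', ih M' B' p' ≠ 0 → ZWins k (bits M') (bits B') (bits (zOf (ih M' B' p'))))
    (h : moveR ih M B p (2 ^ v) ≠ 0) :
    ZWins (k + 1) (bits M) (bits B) (bits (zOf (moveR ih M B p (2 ^ v)))) := by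
  unfold moveR at h ⊢
  obtain ⟨hleg, h⟩ := brec_zero_left h
  rw [hleg]
  change ZWins (k + 1) (bits M) (bits B)
    (bits (zOf (moveC ih (Nat.lor M (2 ^ v)) B (2 ^ v) (ih (Nat.lor M (2 ^ v)) B (Nat.add p 1)))))
  unfold moveC at h ⊢
  generalize hM' : Nat.lor M (2 ^ v) = M' at h ⊢
  generalize hRdef : ih M' B (Nat.add p 1) = R at h ⊢
  cases hR0 : Nat.beq R 0 with
  | true =>
    rw [hR0] at h
    exact (h rfl).elim
  | false =>
    rw [hR0] at h
    have hRne : R ≠ 0 := by
      intro h0
      rw [h0] at hR0
      exact absurd hR0 (by decide)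
    have hD := hih M' B (Nat.add p 1) (by rw [hRdef]; exact hRne)
    rw [hRdef] at hD
    change loop ih M' B loopFuel (zOf R) (Nat.lor (zOf R) (2 ^ v)) (pOf R) ≠ 0 at h
    change ZWins (k + 1) (bits M) (bits B)
      (bits (zOf (loop ih M' B loopFuel (zOf R) (Nat.lor (zOf R) (2 ^ v)) (pOf R))))
    obtain ⟨h1, h2⟩ := loop_sound (k := k) (ih := ih) (M := M') (B := B)
      (fun B' p' hne => hih M' B' p' hne) _ (zOf R) (Nat.lor (zOf R) (2 ^ v)) (pOf R) h
    generalize zOf (loop ih M' B loopFuel (zOf R) (Nat.lor (zOf R) (2 ^ v)) (pOf R)) = Zf at h1 h2 ⊢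
    have hlegal : (Nat.land (2 ^ v) (Nat.lor M B)).testBit v = false := by
      rw [Nat.eq_of_beq_eq_true hleg]; simp
    rw [testBit_and', testBit_or'] at hlegal
    have hvv : (2 ^ v : ℕ).testBit v = true := by simp
    rw [hvv, Bool.true_and, Bool.or_eq_false_iff] at hlegal
    have hbM' : bits M' = insert (cellOf v) (bits M) := by
      rw [← hM']; exact bits_or_two_pow M v
    rw [hbM'] at hD h2
    refine ZWins.step (cellOf v) ?_ ?_ ?_ ?_ hD ?_
    · rw [cellOf_mem_bits]
      apply h1
      rw [testBit_or', hvv]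
      simp
    · rw [cellOf_mem_bits, hlegal.1]; simp
    · rw [cellOf_mem_bits, hlegal.2]; simp
    · exact bits_subset fun i hi => h1 i (by rw [testBit_or', hi]; rfl)
    · rintro _ ⟨i, hi, rfl⟩
      have h3 := h2 i hi
      rwa [bits_or_two_pow] at h3

theorem check_sound (get : ℕ → ℕ) {facts : List Fact} (hf : ∀ f ∈ facts, f.Holds) :
    ∀ (k M B p : ℕ), check get facts k M B p ≠ 0 →
      ZWins k (bits M) (bits B) (bits (zOf (check get facts k M B p))) := by
  intro k
  induction k with
  | zero =>
    intro M B p h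
    exact absurd (check_zero get facts M B p) h
  | succ k ih =>
    intro M B p h
    rw [check_succ] at h ⊢
    unfold nodeT at h ⊢
    generalize get p = t at h ⊢
    cases hk : Nat.ble 1024 t with
    | false =>
      rw [hk] at h
      exact moveR_sound (k := k) (v := t) ih h
    | true =>
      rw [hk] at h
      have ht1 : 1024 ≤ t := Nat.le_of_ble_eq_true hk
      cases hk1 : Nat.ble t 9215 with
      | true =>
        rw [hk1] at h
        exact leafR_sound ht1 (Nat.le_of_ble_eq_true hk1) h
      | false =>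
        rw [hk1] at h
        exact extR_sound hf h

/-- Stream reader on a literal. -/
def getTok (data p : ℕ) : ℕ := Nat.mod (Nat.shiftRight data (Nat.mul 16 p)) 65536

/-- A successful check yields a fact. -/
theorem fact_of_check {data : ℕ} {facts : List Fact} (hf : ∀ f ∈ facts, f.Holds) {k M B Z : ℕ}
    (h : (Nat.beq (zOf (check (getTok data) facts k M B 0)) Z &&
      !Nat.beq (check (getTok data) facts k M B 0) 0) = true) :
    Fact.Holds ⟨k, M, B, Z⟩ := by
  rw [Bool.and_eq_true] at h
  have h1 : zOf (check (getTok data) facts k M B 0) = Z := Nat.eq_of_beq_eq_true h.1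
  have h2 : check (getTok data) facts k M B 0 ≠ 0 := by
    intro h0
    have h3 := h.2
    rw [h0] at h3
    exact absurd h3 (by decide)
  have := check_sound (getTok data) hf k M B 0 h2
  rw [h1] at this
  exact this

end Crest.Agent.Lib.SnakyS
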