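import Crest.Prelude.Def_PolyominoGame
/-!
Kernel-checkable proof trees for the Snaky Maker-Breaker game (S0047).

* `Wins k M B`: Maker, to move with stones `M` against stones `B`, completes a copy within `k`
  further claims (abstract game predicate).
* `ZWins k M B Z`: the same, even after extra Breaker stones anywhere outside the zone `Z`.
* `check`: a checker over Nat bitmasks driven by a token stream; `check_sound` is its soundness.
-/

namespace Crest.Agent.Lib.SnakyS

open Crest.CombinatoricsR.PolyominoGame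

abbrev Cell := ℤ × ℤ

lemma copy_mono {X Y : Set Cell} (h : ContainsCopy X) (hXY : X ⊆ Y) : ContainsCopy Y := by
  obtain ⟨t, e1, e2, h1, h2, h3⟩ := h
  refine ⟨t, e1, e2, h1, h2, ?_⟩
  rcases h3 with h3 | h3
  · exact Or.inl fun p hp => hXY (h3 p hp)
  · exact Or.inr fun p hp => hXY (h3 p hp)

/-- Maker to move from `(M,B)` completes a copy within `k` further claims. -/
inductive Wins : ℕ → Set Cell → Set Cell → Prop
  | done {k : ℕ} {M B : Set Cell} : ContainsCopy M → Wins k M B
  | move {k : ℕ} {M B : Set Cell} (m : Cell) : m ∉ M → m ∉ B →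
      (∀ r, r ∉ insert m M → r ∉ B → Wins k (insert m M) (insert r B)) → Wins (k + 1) M B

lemma Wins.succ {k : ℕ} {M B : Set Cell} (h : Wins k M B) : Wins (k + 1) M B := by
  induction h with
  | done h => exact .done h
  | move m h1 h2 _ ih => exact .move m h1 h2 ih

lemma Wins.mono {k k' : ℕ} {M B : Set Cell} (h : Wins k M B) (hk : k ≤ k') : Wins k' M B := by
  induction hk with
  | refl => exact h
  | step _ ih => exact ih.succ

/-- Zone version: the win survives any extra Breaker stones outside `Z`. -/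
def ZWins (k : ℕ) (M B Z : Set Cell) : Prop :=
  ∀ E : Set Cell, Disjoint E Z → Wins k M (B ∪ E)

lemma ZWins.wins {k : ℕ} {M B Z : Set Cell} (h : ZWins k M B Z) : Wins k M B := by
  simpa using h ∅ (by simp)

lemma ZWins.mono_zone {k : ℕ} {M B Z Z' : Set Cell} (h : ZWins k M B Z) (hZ : Z ⊆ Z') :
    ZWins k M B Z' := fun E hE => h E (hE.mono_right hZ)

lemma ZWins.mono_k {k k' : ℕ} {M B Z : Set Cell} (h : ZWins k M B Z) (hk : k ≤ k') :
    ZWins k' M B Z := fun E hE => (h E hE).mono hk

/-- A win with fewer Breaker stones gives a win with extra stones outside the zone. -/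
lemma ZWins.add_outside {k : ℕ} {M B B' Z X : Set Cell} (h : ZWins k M B Z)
    (hB' : B' = B ∪ X) (hX : Disjoint X Z) : ZWins k M B' Z := by
  intro E hE
  have := h (X ∪ E) (Set.disjoint_union_left.2 ⟨hX, hE⟩)
  subst hB'
  rwa [Set.union_assoc]

/-- The node rule. -/
lemma ZWins.step {k : ℕ} {M B Zd Z : Set Cell} (m : Cell) (hmZ : m ∈ Z) (hmM : m ∉ M) (hmB : m ∉ B)
    (hZd : Zd ⊆ Z) (hD : ZWins k (insert m M) B Zd)
    (hC : ∀ r ∈ Zd, ZWins k (insert m M) (insert r B) Z) : ZWins (k + 1) M B Z := by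
  intro E hE
  refine Wins.move m hmM ?_ ?_
  · rintro (h | h)
    · exact hmB h
    · exact Set.disjoint_left.1 hE h hmZ
  · intro r hr hrB
    by_cases hrZ : r ∈ Zd
    · have := hC r hrZ E hE
      have e : insert r B ∪ E = insert r (B ∪ E) := by
        simp [Set.insert_union]
      rwa [e] at this
    · have := hD (insert r E) (by
        rw [Set.disjoint_left]
        rintro x (rfl | hx) hxZ
        · exact hrZ hxZ
        · exact Set.disjoint_left.1 hE hx (hZd hxZ))
      have e : B ∪ insert r E = insert r (B ∪ E) := by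
        simp [Set.union_insert]
      rwa [e] at this

/-- Leaf rule: playing `m` completes a copy. -/
lemma ZWins.leaf {k : ℕ} {M B Z : Set Cell} (m : Cell) (hmZ : m ∈ Z) (hmM : m ∉ M) (hmB : m ∉ B)
    (hc : ContainsCopy (insert m M)) : ZWins (k + 1) M B Z := by
  intro E hE
  refine Wins.move m hmM ?_ ?_
  · rintro (h | h)
    · exact hmB h
    · exact Set.disjoint_left.1 hE h hmZ
  · intro r _ _
    exact .done hc

/-! ### Cells as bit indices -/

/-- Board cell of a bit index: rows of width 32. -/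
def cellOf (i : ℕ) : Cell := (((i % 32 : ℕ) : ℤ), ((i / 32 : ℕ) : ℤ))

lemma cellOf_injective : Function.Injective cellOf := by
  intro a b h
  simp only [cellOf, Prod.mk.injEq, Nat.cast_inj] at h
  omega

/-- The set of cells of a bitmask. -/
def bits (n : ℕ) : Set Cell := cellOf '' {i | n.testBit i = true}

@[simp] lemma cellOf_mem_bits {n i : ℕ} : cellOf i ∈ bits n ↔ n.testBit i = true := by
  constructor
  · rintro ⟨j, hj, hji⟩
    rw [← cellOf_injective hji]
    exact hj
  · intro h
    exact ⟨i, h, rfl⟩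

lemma bits_or (a b : ℕ) : bits (Nat.lor a b) = bits a ∪ bits b := by
  ext c
  constructor
  · rintro ⟨i, hi, rfl⟩
    have hi' : (a ||| b).testBit i = true := hi
    rw [Nat.testBit_or, Bool.or_eq_true] at hi'
    rcases hi' with h | h
    · exact Or.inl ⟨i, h, rfl⟩
    · exact Or.inr ⟨i, h, rfl⟩
  · rintro (⟨i, hi, rfl⟩ | ⟨i, hi, rfl⟩)
    · refine ⟨i, ?_, rfl⟩
      show (a ||| b).testBit i = true
      simp only [Set.mem_ofPred_eq] at hi
      simp [Nat.testBit_or, hi]
    · refine ⟨i, ?_, rfl⟩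
      show (a ||| b).testBit i = true
      simp only [Set.mem_ofPred_eq] at hi
      simp [Nat.testBit_or, hi]

lemma bits_two_pow (i : ℕ) : bits (2 ^ i) = {cellOf i} := by
  ext c
  constructor
  · rintro ⟨j, hj, rfl⟩
    simp only [Set.mem_ofPred_eq, Nat.testBit_two_pow, decide_eq_true_eq] at hj
    simp [hj]
  · rintro rfl
    simp

lemma bits_or_two_pow (a i : ℕ) : bits (Nat.lor a (2 ^ i)) = insert (cellOf i) (bits a) := by
  rw [bits_or, bits_two_pow, Set.union_singleton]

lemma bits_subset {a b : ℕ} (h : ∀ i, a.testBit i = true → b.testBit i = true) :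
    bits a ⊆ bits b := by
  rintro _ ⟨i, hi, rfl⟩
  exact ⟨i, h i hi, rfl⟩

lemma testBit_or' (a b i : ℕ) : (Nat.lor a b).testBit i = (a.testBit i || b.testBit i) :=
  Nat.testBit_or a b i

lemma testBit_and' (a b i : ℕ) : (Nat.land a b).testBit i = (a.testBit i && b.testBit i) :=
  Nat.testBit_and a b i

lemma testBit_xor' (a b i : ℕ) : (Nat.xor a b).testBit i = (a.testBit i ^^ b.testBit i) :=
  Nat.testBit_xor a b i

/-! ### Copies from patterns -/

/-- The eight oriented patterns, anchored at the lower-left corner of the bounding box. -/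
def patList : ℕ → List (ℕ × ℕ)
  | 0 => [(0, 0), (1, 0), (2, 0), (3, 0), (3, 1), (4, 1)]
  | 1 => [(4, 0), (3, 0), (2, 0), (1, 0), (1, 1), (0, 1)]
  | 2 => [(0, 1), (1, 1), (2, 1), (3, 1), (3, 0), (4, 0)]
  | 3 => [(4, 1), (3, 1), (2, 1), (1, 1), (1, 0), (0, 0)]
  | 4 => [(0, 0), (0, 1), (0, 2), (0, 3), (1, 3), (1, 4)]
  | 5 => [(1, 0), (1, 1), (1, 2), (1, 3), (0, 3), (0, 4)]
  | 6 => [(0, 4), (0, 3), (0, 2), (0, 1), (1, 1), (1, 0)]
  | _ => [(1, 4), (1, 3), (1, 2), (1, 1), (0, 1), (0, 0)]

/-- Bit pattern of orientation `o`. -/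
def pat (o : ℕ) : ℕ := (patList o).foldl (fun acc q => acc ||| 2 ^ (q.2 * 32 + q.1)) 0

/-- Pattern table as a literal: eight 160-bit fields. -/
def patTable : ℕ := (List.range 8).foldr (fun o acc => pat o + acc * 2 ^ 160) 0

/-- Width minus one of orientation `o`. -/
def patW (o : ℕ) : ℕ := cond (Nat.ble 4 o) 1 4

lemma cellOf_add (a dx dy : ℕ) (h : a % 32 + dx < 32) :
    cellOf (a + (dy * 32 + dx)) = (((a % 32 : ℕ) : ℤ) + dx, ((a / 32 : ℕ) : ℤ) + dy) := by
  have h1 : (a + (dy * 32 + dx)) % 32 = a % 32 + dx := by omega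
  have h2 : (a + (dy * 32 + dx)) / 32 = a / 32 + dy := by omega
  simp [cellOf, h1, h2]

end Crest.Agent.Lib.SnakyS
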