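import Crest.Agent.Lib.Snaky.Top
/-!
The root of the game: Maker claims the centre `cellOf 495 = (15,15)`; by symmetry the reply only
matters up to the stabiliser of the centre.
-/

namespace Crest.Agent.Lib.SnakyS

open Crest.CombinatoricsR.PolyominoGame

theorem facts_nil : ∀ f ∈ ([] : List Fact), f.Holds := by
  intro f hf
  simp at hf

theorem facts_cons {g : Fact} {l : List Fact} (h : g.Holds) (t : ∀ f ∈ l, f.Holds) :
    ∀ f ∈ g :: l, f.Holds := by
  intro f hf
  rcases List.mem_cons.1 hf with rfl | hf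
  · exact h
  · exact t f hf

/-- Evaluate once. -/
def chkR (R Z : ℕ) : Bool := Nat.beq (zOf R) Z && !Nat.beq R 0

theorem fact_ok {data : ℕ} {facts : List Fact} (hf : ∀ f ∈ facts, f.Holds) {f : Fact}
    (h : chkR (check (getTok data) facts f.k f.M f.B 0) f.Z = true) : f.Holds := by
  exact fact_of_check (data := data) (k := f.k) (M := f.M) (B := f.B) (Z := f.Z) hf h

/-- The centre. -/
def m0 : Cell := cellOf 495

lemma m0_eq : m0 = (15, 15) := rfl

lemma refX_m0 : refX 15 m0 = m0 := rfl
lemma refY_m0 : refY 15 m0 = m0 := rfl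
lemma swp_m0 : swp m0 = m0 := rfl

def rxI (i : ℕ) : ℕ := (i / 32) * 32 + (30 - i % 32)
def ryI (i : ℕ) : ℕ := (30 - i / 32) * 32 + i % 32
def swI (i : ℕ) : ℕ := (i % 32) * 32 + i / 32

/-- Indices whose cell has coordinates at most `30`. -/
def okI (i : ℕ) : Bool := Nat.ble (i % 32) 30 && Nat.ble (i / 32) 30

lemma okI_spec {i : ℕ} (h : okI i = true) : i % 32 ≤ 30 ∧ i / 32 ≤ 30 := by
  simp only [okI, Bool.and_eq_true] at h
  exact ⟨Nat.le_of_ble_eq_true h.1, Nat.le_of_ble_eq_true h.2⟩

lemma okI_of {i : ℕ} (h1 : i % 32 ≤ 30) (h2 : i / 32 ≤ 30) : okI i = true := by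
  simp only [okI, Bool.and_eq_true]
  exact ⟨Nat.ble_eq_true_of_le h1, Nat.ble_eq_true_of_le h2⟩

lemma rxI_ok {i : ℕ} (h : okI i = true) : okI (rxI i) = true := by
  obtain ⟨h1, h2⟩ := okI_spec h
  apply okI_of <;> simp only [rxI] <;> omega

lemma ryI_ok {i : ℕ} (h : okI i = true) : okI (ryI i) = true := by
  obtain ⟨h1, h2⟩ := okI_spec h
  apply okI_of <;> simp only [ryI] <;> omega

lemma swI_ok {i : ℕ} (h : okI i = true) : okI (swI i) = true := by
  obtain ⟨h1, h2⟩ := okI_spec h
  apply okI_of <;> simp only [swI] <;> omega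

lemma cellOf_rxI {i : ℕ} (h : okI i = true) : cellOf (rxI i) = refX 15 (cellOf i) := by
  obtain ⟨h1, h2⟩ := okI_spec h
  have e1 : rxI i % 32 = 30 - i % 32 := by simp only [rxI]; omega
  have e2 : rxI i / 32 = i / 32 := by simp only [rxI]; omega
  simp only [cellOf, refX, e1, e2, Prod.mk.injEq, and_true]
  omega

lemma cellOf_ryI {i : ℕ} (h : okI i = true) : cellOf (ryI i) = refY 15 (cellOf i) := by
  obtain ⟨h1, h2⟩ := okI_spec h
  have e1 : ryI i % 32 = i % 32 := by simp only [ryI]; omega
  have e2 : ryI i / 32 = 30 - i / 32 := by simp only [ryI]; omega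
  simp only [cellOf, refY, e1, e2, Prod.mk.injEq, true_and]
  omega

lemma cellOf_swI {i : ℕ} (h : okI i = true) : cellOf (swI i) = swp (cellOf i) := by
  obtain ⟨h1, h2⟩ := okI_spec h
  have e1 : swI i % 32 = i / 32 := by simp only [swI]; omega
  have e2 : swI i / 32 = i % 32 := by simp only [swI]; omega
  simp only [cellOf, swp, e1, e2]

/-- `i` is settled directly. -/
def goodI (Z : ℕ) (cls : List ℕ) (i : ℕ) : Bool := !Z.testBit i || cls.contains i

/-- `i` is settled up to symmetry. -/
def orbitOK (Z : ℕ) (cls : List ℕ) (i : ℕ) : Bool :=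
  goodI Z cls i || goodI Z cls (rxI i) || goodI Z cls (ryI i) || goodI Z cls (rxI (ryI i)) ||
  goodI Z cls (swI i) || goodI Z cls (rxI (swI i)) || goodI Z cls (ryI (swI i)) ||
  goodI Z cls (rxI (ryI (swI i)))

/-- The table check at the root. -/
def rootTable (Z : ℕ) (cls : List ℕ) : Bool :=
  Nat.ble Z (2 ^ 1024 - 1) &&
    (List.range 1024).all fun i => !Z.testBit i || (okI i && orbitOK Z cls i)

theorem root_wins {Z : ℕ} {cls : List ℕ}
    (hD : ZWins 20 (bits (2 ^ 495)) (bits 0) (bits Z))
    (hC : ∀ i ∈ cls, Wins 20 (bits (2 ^ 495)) (bits (2 ^ i)))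
    (ht : rootTable Z cls = true) : Wins 21 ∅ ∅ := by
  have hM : bits (2 ^ 495) = {m0} := bits_two_pow 495
  have hB0 : bits 0 = ∅ := by
    ext c
    constructor
    · rintro ⟨i, hi, rfl⟩
      simp at hi
    · intro h
      exact absurd h (by simp)
  rw [hM, hB0] at hD
  simp only [hM] at hC
  -- the predicate
  let Good : Cell → Prop := fun r => Wins 20 {m0} {r}
  have hdirect : ∀ i, goodI Z cls i = true → Good (cellOf i) := by
    intro i hi
    simp only [goodI, Bool.or_eq_true, Bool.not_eq_true', List.contains_iff_mem] at hi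
    rcases hi with hi | hi
    · have h1 := hD {cellOf i} (by
        rw [Set.disjoint_singleton_left, cellOf_mem_bits, hi]
        simp)
      simpa [Good] using h1
    · have h1 := hC i hi
      rwa [bits_two_pow] at h1
  have hsym : ∀ g : Cell → Cell, Function.Involutive g →
      (∀ X, ContainsCopy X → ContainsCopy (g '' X)) → g m0 = m0 →
      ∀ r, Good (g r) → Good r := fun g h1 h2 h3 r h => Wins.map_singleton h1 h2 h3 h
  have hrx : ∀ i, okI i = true → Good (cellOf (rxI i)) → Good (cellOf i) := by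
    intro i hi h
    rw [cellOf_rxI hi] at h
    exact hsym _ (refX_invol 15) (fun X => copy_refX 15) refX_m0 _ h
  have hry : ∀ i, okI i = true → Good (cellOf (ryI i)) → Good (cellOf i) := by
    intro i hi h
    rw [cellOf_ryI hi] at h
    exact hsym _ (refY_invol 15) (fun X => copy_refY 15) refY_m0 _ h
  have hsw : ∀ i, okI i = true → Good (cellOf (swI i)) → Good (cellOf i) := by
    intro i hi h
    rw [cellOf_swI hi] at h
    exact hsym _ swp_invol (fun X => copy_swp) swp_m0 _ h
  have horbit : ∀ i, okI i = true → orbitOK Z cls i = true → Good (cellOf i) := by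
    intro i hi h
    simp only [orbitOK, Bool.or_eq_true] at h
    have a1 := rxI_ok hi
    have a2 := ryI_ok hi
    have a3 := swI_ok hi
    have a4 := rxI_ok a2
    have a5 := rxI_ok a3
    have a6 := ryI_ok a3
    have a7 := rxI_ok a6
    rcases h with (((((((h | h) | h) | h) | h) | h) | h) | h)
    · exact hdirect _ h
    · exact hrx _ hi (hdirect _ h)
    · exact hry _ hi (hdirect _ h)
    · exact hry _ hi (hrx _ a2 (hdirect _ h))
    · exact hsw _ hi (hdirect _ h)
    · exact hsw _ hi (hrx _ a3 (hdirect _ h))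
    · exact hsw _ hi (hry _ a3 (hdirect _ h))
    · exact hsw _ hi (hry _ a3 (hrx _ a6 (hdirect _ h)))
  simp only [rootTable, Bool.and_eq_true, List.all_eq_true, List.mem_range] at ht
  have hZlt : Z < 2 ^ 1024 := by
    have := Nat.le_of_ble_eq_true ht.1
    have h2 : 0 < 2 ^ 1024 := by positivity
    omega
  have hall : ∀ r, Good r := by
    intro r
    by_cases hr : r ∈ bits Z
    · obtain ⟨i, hi, rfl⟩ := hr
      have hi' : Z.testBit i = true := hi
      have hlt : i < 1024 := by
        by_contra hge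
        have h3 : Z < 2 ^ i := lt_of_lt_of_le hZlt (Nat.pow_le_pow_right (by norm_num) (by omega))
        rw [Nat.testBit_lt_two_pow h3] at hi'
        exact absurd hi' (by decide)
      have h4 := ht.2 i hlt
      rw [hi'] at h4
      simp only [Bool.not_true, Bool.false_or, Bool.and_eq_true] at h4
      exact horbit i h4.1 h4.2
    · have h1 := hD {r} (by rwa [Set.disjoint_singleton_left])
      simpa [Good] using h1
  refine Wins.move m0 (by simp) (by simp) ?_
  intro r _ _
  have h1 := hall r
  simpa [Good] using h1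

/-- Conversions for the data files. -/
theorem fact_wins {f : Fact} (h : f.Holds) {M B : ℕ} (hM : f.M = M) (hB : f.B = B)
    (hk : f.k ≤ 20) : Wins 20 (bits M) (bits B) := by
  subst hM hB
  exact (ZWins.wins h).mono hk

theorem fact_zwins {f : Fact} (h : f.Holds) {M B Z : ℕ} (hM : f.M = M) (hB : f.B = B)
    (hZ : f.Z = Z) (hk : f.k ≤ 20) : ZWins 20 (bits M) (bits B) (bits Z) := by
  subst hM hB hZ
  exact ZWins.mono_k h hk

end Crest.Agent.Lib.SnakyS
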