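import Crest.Agent.Lib.Snaky.Check
/-!
From `Wins 21 ∅ ∅` to the policy statement of S0047, and the symmetry of `Wins`.
-/

namespace Crest.Agent.Lib.SnakyS

open Crest.CombinatoricsR.PolyominoGame

lemma Wins.exists_move {k : ℕ} {M B : Set Cell} (h : Wins (k + 1) M B) (hM : M.Finite)
    (hB : B.Finite) :
    ∃ m, m ∉ M ∧ m ∉ B ∧ ∀ r, r ∉ insert m M → r ∉ B → Wins k (insert m M) (insert r B) := by
  cases h with
  | done hc =>
    obtain ⟨m, hm⟩ := (hM.union hB).exists_notMem
    refine ⟨m, fun h => hm (Or.inl h), fun h => hm (Or.inr h), fun r _ _ => .done ?_⟩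
    exact copy_mono hc (Set.subset_insert _ _)
  | move m h1 h2 h3 => exact ⟨m, h1, h2, h3⟩

lemma Wins.zero_copy {M B : Set Cell} (h : Wins 0 M B) : ContainsCopy M := by
  cases h with
  | done hc => exact hc

/-- Positions for the policy. -/
structure St where
  k : ℕ
  M : Set Cell
  B : Set Cell

/-- The move of the policy in a position. -/
noncomputable def pick (s : St) : Cell :=
  open Classical in
  if h : ∃ m, m ∉ s.M ∧ m ∉ s.B ∧
      ∀ r, r ∉ insert m s.M → r ∉ s.B → Wins (s.k - 1) (insert m s.M) (insert r s.B)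
  then h.choose else (0, 0)

lemma pick_spec {s : St} (h : ∃ m, m ∉ s.M ∧ m ∉ s.B ∧
      ∀ r, r ∉ insert m s.M → r ∉ s.B → Wins (s.k - 1) (insert m s.M) (insert r s.B)) :
    pick s ∉ s.M ∧ pick s ∉ s.B ∧
      ∀ r, r ∉ insert (pick s) s.M → r ∉ s.B →
        Wins (s.k - 1) (insert (pick s) s.M) (insert r s.B) := by
  unfold pick
  rw [dif_pos h]
  exact h.choose_spec

/-- The position after a reply. -/
noncomputable def nextSt (s : St) (r : Cell) : St := ⟨s.k - 1, insert (pick s) s.M, insert r s.B⟩

/-- The position after a list of replies. -/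
noncomputable def stOf (l : List Cell) : St := l.foldl nextSt ⟨21, ∅, ∅⟩

/-- The policy. -/
noncomputable def policy (l : List Cell) : Cell := pick (stOf l)

theorem statement_of_wins (hroot : Wins 21 ∅ ∅) :
    ∃ σ : List (ℤ × ℤ) → ℤ × ℤ, ∀ b : ℕ → ℤ × ℤ,
      (∀ k : ℕ, k < 20 →
        (∀ j : ℕ, j ≤ k → b k ≠ makerClaim σ b j) ∧
        (∀ j : ℕ, j < k → b k ≠ b j)) →
      (∀ k : ℕ, k ≤ 20 →
        (∀ j : ℕ, j < k → makerClaim σ b k ≠ makerClaim σ b j) ∧
        (∀ j : ℕ, j < k → makerClaim σ b k ≠ b j)) ∧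
      ContainsCopy {c | ∃ j : ℕ, j ≤ 20 ∧ c = makerClaim σ b j} := by
  refine ⟨policy, ?_⟩
  intro b hb
  set S : ℕ → St := fun n => stOf ((List.range n).map b) with hS
  have hclaim : ∀ n, makerClaim policy b n = pick (S n) := fun n => rfl
  have hSsucc : ∀ n, S (n + 1) = nextSt (S n) (b n) := by
    intro n
    simp only [hS, stOf, List.range_succ, List.map_append, List.foldl_append, List.map_cons,
      List.map_nil, List.foldl_cons, List.foldl_nil]
  -- the invariant
  have inv : ∀ n, n ≤ 20 →
      (S n).k = 21 - n ∧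
      (S n).M = {c | ∃ j, j < n ∧ c = makerClaim policy b j} ∧
      (S n).B = {c | ∃ j, j < n ∧ c = b j} ∧
      Wins (21 - n) (S n).M (S n).B := by
    intro n
    induction n with
    | zero =>
      intro _
      refine ⟨rfl, ?_, ?_, ?_⟩
      · ext c; simp [hS, stOf]
      · ext c; simp [hS, stOf]
      · simpa [hS, stOf] using hroot
    | succ n ih =>
      intro hn
      obtain ⟨h1, h2, h3, h4⟩ := ih (by omega)
      have hMf : (S n).M.Finite := by
        rw [h2]
        exact ((Set.finite_lt_nat n).image (makerClaim policy b)).subset (by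
          rintro c ⟨j, hj, rfl⟩
          exact ⟨j, hj, rfl⟩)
      have hBf : (S n).B.Finite := by
        rw [h3]
        exact ((Set.finite_lt_nat n).image b).subset (by
          rintro c ⟨j, hj, rfl⟩
          exact ⟨j, hj, rfl⟩)
      have hk : 21 - n = (20 - n) + 1 := by omega
      rw [hk] at h4
      have hex := Wins.exists_move h4 hMf hBf
      have hex' : ∃ m, m ∉ (S n).M ∧ m ∉ (S n).B ∧ ∀ r, r ∉ insert m (S n).M → r ∉ (S n).B →
          Wins ((S n).k - 1) (insert m (S n).M) (insert r (S n).B) := by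
        have e : (S n).k - 1 = 20 - n := by omega
        rw [e]
        exact hex
      obtain ⟨s1, s2, s3⟩ := pick_spec hex'
      have hbn := hb n (by omega)
      have hr1 : b n ∉ insert (pick (S n)) (S n).M := by
        rintro (h | h)
        · exact hbn.1 n le_rfl ((hclaim n).symm ▸ h)
        · rw [h2] at h
          obtain ⟨j, hj, hjc⟩ := h
          exact hbn.1 j hj.le hjc
      have hr2 : b n ∉ (S n).B := by
        rw [h3]
        rintro ⟨j, hj, hjc⟩
        exact hbn.2 j hj hjc
      have hw := s3 (b n) hr1 hr2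
      rw [hSsucc]
      refine ⟨?_, ?_, ?_, ?_⟩
      · show (S n).k - 1 = _
        omega
      · show insert (pick (S n)) (S n).M = _
        rw [h2]
        ext c
        constructor
        · rintro (rfl | ⟨j, hj, rfl⟩)
          · exact ⟨n, by omega, (hclaim n).symm⟩
          · exact ⟨j, by omega, rfl⟩
        · rintro ⟨j, hj, rfl⟩
          rcases Nat.lt_succ_iff_lt_or_eq.1 hj with hj | rfl
          · exact Or.inr ⟨j, hj, rfl⟩
          · exact Or.inl (hclaim _)
      · show insert (b n) (S n).B = _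
        rw [h3]
        ext c
        constructor
        · rintro (rfl | ⟨j, hj, rfl⟩)
          · exact ⟨n, by omega, rfl⟩
          · exact ⟨j, by omega, rfl⟩
        · rintro ⟨j, hj, rfl⟩
          rcases Nat.lt_succ_iff_lt_or_eq.1 hj with hj | rfl
          · exact Or.inr ⟨j, hj, rfl⟩
          · exact Or.inl rfl
      · have e : 21 - (n + 1) = (S n).k - 1 := by omega
        rw [e]
        exact hw
  -- legality of the claims
  have hmove : ∀ n, n ≤ 20 → pick (S n) ∉ (S n).M ∧ pick (S n) ∉ (S n).B ∧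
      ∀ r, r ∉ insert (pick (S n)) (S n).M → r ∉ (S n).B →
        Wins ((S n).k - 1) (insert (pick (S n)) (S n).M) (insert r (S n).B) := by
    intro n hn
    obtain ⟨h1, h2, h3, h4⟩ := inv n hn
    have hMf : (S n).M.Finite := by
      rw [h2]
      exact ((Set.finite_lt_nat n).image (makerClaim policy b)).subset (by
        rintro c ⟨j, hj, rfl⟩
        exact ⟨j, hj, rfl⟩)
    have hBf : (S n).B.Finite := by
      rw [h3]
      exact ((Set.finite_lt_nat n).image b).subset (by
        rintro c ⟨j, hj, rfl⟩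
        exact ⟨j, hj, rfl⟩)
    have hk : 21 - n = (20 - n) + 1 := by omega
    rw [hk] at h4
    have hex := Wins.exists_move h4 hMf hBf
    apply pick_spec
    have e : (S n).k - 1 = 20 - n := by omega
    rw [e]
    exact hex
  refine ⟨?_, ?_⟩
  · intro k hk
    obtain ⟨h1, h2, h3, _⟩ := inv k hk
    obtain ⟨s1, s2, _⟩ := hmove k hk
    constructor
    · intro j hj e
      apply s1
      rw [h2]
      exact ⟨j, hj, (hclaim k).symm.trans e⟩
    · intro j hj e
      apply s2
      rw [h3]
      exact ⟨j, hj, (hclaim k).symm.trans e⟩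
  · obtain ⟨h1, h2, h3, _⟩ := inv 20 le_rfl
    obtain ⟨s1, s2, s3⟩ := hmove 20 le_rfl
    have hfin : (insert (pick (S 20)) (S 20).M ∪ (S 20).B).Finite := by
      refine Set.Finite.union (Set.Finite.insert _ ?_) ?_
      · rw [h2]
        exact ((Set.finite_lt_nat 20).image (makerClaim policy b)).subset (by
          rintro c ⟨j, hj, rfl⟩
          exact ⟨j, hj, rfl⟩)
      · rw [h3]
        exact ((Set.finite_lt_nat 20).image b).subset (by
          rintro c ⟨j, hj, rfl⟩
          exact ⟨j, hj, rfl⟩)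
    obtain ⟨r, hr⟩ := hfin.exists_notMem
    have hw := s3 r (fun h => hr (Or.inl h)) (fun h => hr (Or.inr h))
    have hk0 : (S 20).k - 1 = 0 := by omega
    rw [hk0] at hw
    refine copy_mono hw.zero_copy ?_
    rintro c (rfl | hc)
    · exact ⟨20, le_rfl, (hclaim 20).symm⟩
    · rw [h2] at hc
      obtain ⟨j, hj, rfl⟩ := hc
      exact ⟨j, by omega, rfl⟩

/-! ### Symmetry -/

/-- Reflection of the first coordinate about `c`. -/
def refX (c : ℤ) (p : Cell) : Cell := (2 * c - p.1, p.2)
/-- Reflection of the second coordinate about `c`. -/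
def refY (c : ℤ) (p : Cell) : Cell := (p.1, 2 * c - p.2)
/-- Exchange of the coordinates. -/
def swp (p : Cell) : Cell := (p.2, p.1)

lemma refX_invol (c : ℤ) : Function.Involutive (refX c) := by
  intro p; ext <;> simp [refX]
lemma refY_invol (c : ℤ) : Function.Involutive (refY c) := by
  intro p; ext <;> simp [refY]
lemma swp_invol : Function.Involutive swp := by
  intro p; rfl

lemma copy_refX (c : ℤ) {X : Set Cell} (h : ContainsCopy X) : ContainsCopy (refX c '' X) := by
  obtain ⟨t, e1, e2, h1, h2, h3⟩ := h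
  refine ⟨(2 * c - t.1, t.2), -e1, e2, ?_, h2, ?_⟩
  · rcases h1 with rfl | rfl <;> simp
  rcases h3 with h3 | h3
  · refine Or.inl fun p hp => ⟨_, h3 p hp, ?_⟩
    ext <;> simp [refX]; ring
  · refine Or.inr fun p hp => ⟨_, h3 p hp, ?_⟩
    ext <;> simp [refX]; ring

lemma copy_refY (c : ℤ) {X : Set Cell} (h : ContainsCopy X) : ContainsCopy (refY c '' X) := by
  obtain ⟨t, e1, e2, h1, h2, h3⟩ := h
  refine ⟨(t.1, 2 * c - t.2), e1, -e2, h1, ?_, ?_⟩
  · rcases h2 with rfl | rfl <;> simp
  rcases h3 with h3 | h3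
  · refine Or.inl fun p hp => ⟨_, h3 p hp, ?_⟩
    ext <;> simp [refY]; ring
  · refine Or.inr fun p hp => ⟨_, h3 p hp, ?_⟩
    ext <;> simp [refY]; ring

lemma copy_swp {X : Set Cell} (h : ContainsCopy X) : ContainsCopy (swp '' X) := by
  obtain ⟨t, e1, e2, h1, h2, h3⟩ := h
  refine ⟨(t.2, t.1), e2, e1, h2, h1, ?_⟩
  rcases h3 with h3 | h3
  · exact Or.inr fun p hp => ⟨_, h3 p hp, rfl⟩
  · exact Or.inl fun p hp => ⟨_, h3 p hp, rfl⟩

lemma Wins.map {g : Cell → Cell} (hg : Function.Involutive g)
    (hc : ∀ X, ContainsCopy X → ContainsCopy (g '' X)) {k : ℕ} {M B : Set Cell}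
    (h : Wins k M B) : Wins k (g '' M) (g '' B) := by
  induction h with
  | done h => exact .done (hc _ h)
  | @move k M B m h1 h2 _ ih =>
    have hinj := hg.injective
    refine .move (g m) ?_ ?_ ?_
    · rintro ⟨x, hx, hxm⟩
      exact h1 (hinj hxm ▸ hx)
    · rintro ⟨x, hx, hxm⟩
      exact h2 (hinj hxm ▸ hx)
    · intro r hr hrB
      have h3 : g r ∉ insert m M := by
        intro h4
        apply hr
        rw [← Set.image_insert_eq]
        exact ⟨g r, h4, hg r⟩
      have h4 : g r ∉ B := by
        intro h5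
        exact hrB ⟨g r, h5, hg r⟩
      have h5 := ih (g r) h3 h4
      rw [Set.image_insert_eq, Set.image_insert_eq, hg r] at h5
      exact h5

/-- The symmetric form used at the root. -/
lemma Wins.map_singleton {g : Cell → Cell} (hg : Function.Involutive g)
    (hc : ∀ X, ContainsCopy X → ContainsCopy (g '' X)) {k : ℕ} {m r : Cell} (hm : g m = m)
    (h : Wins k {m} {g r}) : Wins k {m} {r} := by
  have := h.map hg hc
  simpa [Set.image_singleton, hm, hg r] using this

end Crest.Agent.Lib.SnakyS
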